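import Vale.Agent.P251EJ.DefsS

/-!
# P251EJ, row TOP: the skeleta and the open strata of a finite cell structure
-/

open Set Topology Metric

noncomputable section

namespace Vale.Agent.P251EJ51

open Vale.Agent.P251EJ Vale.Agent.P251.G.Cell

variable {Y : Type} [TopologicalSpace Y]

theorem cell_mem (C : P251EJ.Cells Y) (d : ℕ) (x : C.P d) {s : Fin d → ℝ}
    (hs : s ∈ interior (ordS d)) : C.c d x s ∈ C.sk (d + 1) \ C.sk d := by
  rw [C.cov d]
  exact mem_iUnion.2 ⟨x, s, hs, rfl⟩

theorem chain_fin (hB : BodyS) (C : P251EJ.Cells Y) (d : ℕ) (S : Finset (C.P d)) :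
    CellChain univ (C.sk d) (C.sk d ∪ ⋃ x ∈ S, C.c d x '' interior (ordS d)) := by
  classical
  obtain ⟨h1, h2, h3, -⟩ := hB d
  induction S using Finset.induction_on with
  | empty =>
    simp only [Finset.notMem_empty, iUnion_of_empty, iUnion_empty, union_empty]
    exact CellChain.refl _
  | insert x S hx ih =>
    refine CellChain.step (a := d) (mem_univ _) ih ?_
    refine CellStep.of_body (E := Fin d → ℝ) (by simp) h1 h2 h3 ?_ (C.c d x) (C.cont d x)
      (fun s hs => Or.inl (C.bd d x hs)) (fun s hs t ht h => (C.inj d x x s hs t ht h).2) ?_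
    · refine union_subset_union_right _ ?_
      rw [Finset.set_biUnion_insert]
      exact subset_union_right
    · rw [Finset.set_biUnion_insert]
      ext y
      constructor
      · rintro ⟨s, hs, rfl⟩
        refine ⟨Or.inr (Or.inl ⟨s, hs, rfl⟩), ?_⟩
        rintro (h | h)
        · exact (cell_mem C d x hs).2 h
        · obtain ⟨x', hx', t, ht, h⟩ := mem_iUnion₂.1 h
          rw [(C.inj d x' x t ht s hs h).1] at hx'
          exact hx hx'
      · rintro ⟨h | h | h, hn⟩
        · exact absurd (Or.inl h) hn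
        · exact h
        · exact absurd (Or.inr h) hn

theorem chain_sk (hB : BodyS) (C : P251EJ.Cells Y) (d : ℕ) :
    CellChain univ (C.sk d) (C.sk (d + 1)) := by
  have h := chain_fin hB C d Finset.univ
  have e : (C.sk d ∪ ⋃ x ∈ (Finset.univ : Finset (C.P d)), C.c d x '' interior (ordS d)) =
      C.sk (d + 1) := by
    simp only [Finset.mem_univ, iUnion_true]
    rw [← C.cov d, union_sdiff_cancel (C.mono d)]
  rwa [e] at h

theorem closed_sk [T2Space Y] (hB : BodyS) (C : P251EJ.Cells Y) (d : ℕ) : IsClosed (C.sk d) := by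
  induction d with
  | zero => rw [C.sk_zero]; exact isClosed_empty
  | succ d ih => exact (chain_sk hB C d).isClosed ih

theorem emb_sk [T2Space Y] (hB : BodyS) (C : P251EJ.Cells Y) (d k : ℕ) (e : Fin k ≃ C.P d) :
    IsEmbedding fun z : Fin k × interior (ordS d) => C.c d (e z.1) z.2 := by
  obtain ⟨-, h2, -, -⟩ := hB d
  let Φ : Fin k × (Fin d → ℝ) → Y := fun z => C.c d (e z.1) z.2
  have hΦ : ContinuousOn Φ (univ ×ˢ ordS d) := by
    rintro ⟨i, s⟩ ⟨-, hs⟩
    have k1 : ContinuousWithinAt (fun z : Fin k × (Fin d → ℝ) => C.c d (e i) z.2)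
        (univ ×ˢ ordS d) (i, s) :=
      ContinuousWithinAt.comp (f := Prod.snd) (C.cont d (e i) s hs)
        continuous_snd.continuousWithinAt fun z hz => hz.2
    refine k1.congr_of_eventuallyEq ?_ rfl
    have k2 : ∀ᶠ z : Fin k × (Fin d → ℝ) in 𝓝 (i, s), z.1 = i :=
      ((isOpen_discrete {i}).preimage continuous_fst).mem_nhds rfl
    filter_upwards [nhdsWithin_le_nhds k2] with z hz
    simp only [Φ, hz]
  let J : Fin k × interior (ordS d) → Fin k × (Fin d → ℝ) := Prod.map id Subtype.val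
  have hJ : IsEmbedding J := IsEmbedding.id.prodMap IsEmbedding.subtypeVal
  have hJm : ∀ z, J z ∈ univ ×ˢ ordS d := fun z => ⟨mem_univ _, interior_subset z.2.2⟩
  have hc : Continuous fun z : Fin k × interior (ordS d) => C.c d (e z.1) z.2 :=
    hΦ.comp_continuous hJ.continuous hJm
  have key : ∀ (z : Fin k × interior (ordS d)) (w : Fin k × (Fin d → ℝ)), w ∈ univ ×ˢ ordS d →
      Φ w = C.c d (e z.1) z.2 → w = J z := by
    rintro z ⟨i, s⟩ ⟨-, hs⟩ h
    by_cases hi : s ∈ interior (ordS d)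
    · obtain ⟨k1, k2⟩ := C.inj d _ _ s hi z.2 z.2.2 h
      exact Prod.ext (e.injective k1) k2
    · exact absurd (h ▸ C.bd d (e i) ⟨subset_closure hs, hi⟩) (cell_mem C d (e z.1) z.2.2).2
  refine ⟨⟨le_antisymm (continuous_iff_le_induced.1 hc) ?_⟩, fun z z' h => ?_⟩
  · intro U hU
    obtain ⟨A, hA, hAU⟩ := hJ.isInducing.isClosed_iff.1 hU.isClosed_compl
    have hK : IsCompact (A ∩ univ ×ˢ ordS d) := (isCompact_univ.prod h2).inter_left hA
    refine ⟨(Φ '' (A ∩ univ ×ˢ ordS d))ᶜ,
      (hK.image_of_continuousOn (hΦ.mono inter_subset_right)).isClosed.isOpen_compl, ?_⟩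
    rw [preimage_compl, compl_eq_comm, ← hAU]
    ext z
    constructor
    · intro hz
      exact ⟨J z, ⟨hz, hJm z⟩, rfl⟩
    · rintro ⟨w, ⟨hw, hw'⟩, h⟩
      rw [key z w hw' h] at hw
      exact hw
  · exact hJ.injective (key z' (J z) (hJm z) h)

theorem homeo_int (hB : BodyS) (d : ℕ) : Nonempty (interior (ordS d) ≃ₜ (Fin d → ℝ)) := by
  obtain ⟨h1, h2, h3, -⟩ := hB d
  obtain ⟨g, k1, -, -⟩ := exists_body_homeo (E := Fin d → ℝ) (a := d) (by simp) h1 h2 h3
  exact ⟨((g.image _).trans (Homeomorph.setCongr k1)).trans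
    ((Homeomorph.unitBall (E := Euc d)).symm.trans (EuclideanSpace.equiv (Fin d) ℝ).toHomeomorph)⟩

/-- row TOP -/
theorem topS : TopS := fun hB _ _ _ _ C =>
  ⟨chain_sk hB C, closed_sk hB C, emb_sk hB C, homeo_int hB⟩

end Vale.Agent.P251EJ51
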