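import Mathlib.CategoryTheory.Triangulated.Pretriangulated

/-!
# A rational five lemma in transfer form

`TR π e` : up to nonzero integers, `π : X ⟶ Z` is the projection onto the image of the
(rational) idempotent `e`.
-/

open CategoryTheory Limits Pretriangulated

universe v u

namespace Vale.Agent.P251EJ51

section basic

variable {T : Type u} [Category.{v} T] [Preadditive T]

/-- there is a transfer `t` with `t ≫ π = a` and `π ≫ t = b e`, `a` and `b` nonzero integers -/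
def TR {X Z : T} (π : X ⟶ Z) (e : X ⟶ X) : Prop :=
  ∃ (t : Z ⟶ X) (a b : ℤ), a ≠ 0 ∧ b ≠ 0 ∧ t ≫ π = a • 𝟙 Z ∧ π ≫ t = b • e

theorem TR.kill {X Z P : T} {π : X ⟶ Z} {e : X ⟶ X} (h : TR π e) (y : P ⟶ X)
    (hy : y ≫ π = 0) : ∃ N : ℤ, N ≠ 0 ∧ N • (y ≫ e) = 0 := by
  obtain ⟨t, a, b, -, hb, -, h2⟩ := h
  refine ⟨b, hb, ?_⟩
  rw [← Preadditive.comp_zsmul, ← h2, ← Category.assoc, hy, zero_comp]

theorem TR.lift {X Z P : T} {π : X ⟶ Z} {e : X ⟶ X} (h : TR π e) (z : P ⟶ Z) :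
    ∃ N : ℤ, N ≠ 0 ∧ ∃ y : P ⟶ X, y ≫ π = N • z := by
  obtain ⟨t, a, b, ha, -, h1, -⟩ := h
  refine ⟨a, ha, z ≫ t, ?_⟩
  rw [Category.assoc, h1, Preadditive.comp_zsmul, Category.comp_id]

theorem TR.of_elt {X Z : T} {π : X ⟶ Z} {e : X ⟶ X} {c : ℤ} (hc : c ≠ 0) (he : e ≫ π = c • π)
    (inj : ∀ y : X ⟶ X, y ≫ π = 0 → ∃ N : ℤ, N ≠ 0 ∧ N • (y ≫ e) = 0)
    (surj : ∃ N : ℤ, N ≠ 0 ∧ ∃ y : Z ⟶ X, y ≫ π = N • 𝟙 Z) : TR π e := by
  obtain ⟨N, hN, y, hy⟩ := surj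
  obtain ⟨M, hM, h⟩ := inj (π ≫ y - N • 𝟙 X) (by
    rw [Preadditive.sub_comp, Category.assoc, hy, Preadditive.comp_zsmul, Preadditive.zsmul_comp,
      Category.comp_id, Category.id_comp, sub_self])
  refine ⟨M • (y ≫ e), M * (c * N), M * N, mul_ne_zero hM (mul_ne_zero hc hN),
    mul_ne_zero hM hN, ?_, ?_⟩
  · rw [Preadditive.zsmul_comp, Category.assoc, he, Preadditive.comp_zsmul, hy, mul_smul, mul_smul]
  · rw [Preadditive.sub_comp, Preadditive.zsmul_comp, Category.id_comp, smul_sub, sub_eq_zero,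
      Category.assoc] at h
    rw [Preadditive.comp_zsmul, h, mul_smul]

theorem TR.map {T' : Type*} [Category T'] [Preadditive T'] (F : T ⥤ T') [F.Additive] {X Z : T}
    {π : X ⟶ Z} {e : X ⟶ X} (h : TR π e) : TR (F.map π) (F.map e) := by
  obtain ⟨t, a, b, ha, hb, h1, h2⟩ := h
  refine ⟨F.map t, a, b, ha, hb, ?_, ?_⟩
  · rw [← F.map_comp, h1, F.map_zsmul, F.map_id]
  · rw [← F.map_comp, h2, F.map_zsmul]

/-- transport along isomorphisms -/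
theorem TR.of_iso {X Z X' Z' : T} {π : X ⟶ Z} {e : X ⟶ X} {π' : X' ⟶ Z'} {e' : X' ⟶ X'}
    (h : TR π e) (u : X ≅ X') (w : Z ≅ Z') (h1 : u.hom ≫ π' = π ≫ w.hom)
    (h2 : u.hom ≫ e' = e ≫ u.hom) : TR π' e' := by
  obtain ⟨t, a, b, ha, hb, k1, k2⟩ := h
  refine ⟨w.inv ≫ t ≫ u.hom, a, b, ha, hb, ?_, ?_⟩
  · rw [Category.assoc, Category.assoc, h1, ← Category.assoc t, k1, Preadditive.zsmul_comp,
      Category.id_comp, Preadditive.comp_zsmul, Iso.inv_hom_id]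
  · rw [← cancel_epi u.hom, ← Category.assoc, h1, Category.assoc, Iso.hom_inv_id_assoc,
      ← Category.assoc, k2, Preadditive.zsmul_comp, Preadditive.comp_zsmul, h2]

theorem TR.of_isZero {X Z : T} (hX : IsZero X) (hZ : IsZero Z) (π : X ⟶ Z) (e : X ⟶ X) :
    TR π e :=
  ⟨hZ.to_ X, 1, 1, one_ne_zero, one_ne_zero, hZ.eq_of_src _ _, hX.eq_of_src _ _⟩

end basic

variable {T : Type u} [Category.{v} T] [Preadditive T] [HasZeroObject T] [HasShift T ℤ]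
  [∀ n : ℤ, (shiftFunctor T n).Additive] [Pretriangulated T]

/-- surjectivity half, from four terms -/
theorem surj_aux {D D' : Triangle T} (hD : D ∈ distTriang T) (hD' : D' ∈ distTriang T)
    (π : D ⟶ D') (e : D ⟶ D) {c : ℤ} (hc : c ≠ 0) (he : e.hom₃ ≫ π.hom₃ = c • π.hom₃)
    (hee : e.hom₃ ≫ e.hom₃ = c • e.hom₃) (h1 : TR π.hom₁ e.hom₁) (h3 : TR π.hom₃ e.hom₃)
    {P : T} (z : P ⟶ D'.obj₂) : ∃ N : ℤ, N ≠ 0 ∧ ∃ y : P ⟶ D.obj₂, y ≫ π.hom₂ = N • z := by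
  obtain ⟨N, hN, y, hy⟩ := h3.lift (z ≫ D'.mor₂)
  have k0 : (y ≫ e.hom₃) ≫ π.hom₃ = (c * N) • (z ≫ D'.mor₂) := by
    rw [Category.assoc, he, Preadditive.comp_zsmul, hy, mul_smul]
  obtain ⟨M, hM, hk⟩ := (h1.map (shiftFunctor T (1 : ℤ))).kill ((y ≫ e.hom₃) ≫ D.mor₃) (by
    rw [Category.assoc, π.comm₃, ← Category.assoc, k0, Preadditive.zsmul_comp, Category.assoc,
      comp_distTriang_mor_zero₂₃ _ hD', comp_zero, smul_zero])
  have k1 : ((M * c) • (y ≫ e.hom₃)) ≫ D.mor₃ = 0 := by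
    rw [Category.assoc, e.comm₃, Category.assoc, ← Category.assoc e.hom₃, hee,
      Preadditive.zsmul_comp, Preadditive.comp_zsmul, ← mul_smul] at hk
    rw [Preadditive.zsmul_comp, Category.assoc, hk]
  obtain ⟨yB, hyB⟩ := Triangle.coyoneda_exact₃ _ hD _ k1
  have k2 : (yB ≫ π.hom₂ - (M * c * (c * N)) • z) ≫ D'.mor₂ = 0 := by
    rw [Preadditive.sub_comp, Category.assoc, ← π.comm₂, ← Category.assoc, ← hyB,
      Preadditive.zsmul_comp, k0, Preadditive.zsmul_comp, ← mul_smul, sub_self]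
  obtain ⟨zA, hzA⟩ := Triangle.coyoneda_exact₂ _ hD' _ k2
  obtain ⟨K, hK, yA, hyA⟩ := h1.lift zA
  refine ⟨K * (M * c * (c * N)),
    mul_ne_zero hK (mul_ne_zero (mul_ne_zero hM hc) (mul_ne_zero hc hN)),
    K • yB - yA ≫ D.mor₁, ?_⟩
  rw [Preadditive.sub_comp, Category.assoc, π.comm₁, ← Category.assoc, hyA,
    Preadditive.zsmul_comp, Preadditive.zsmul_comp, ← hzA, smul_sub, mul_smul K, sub_sub_cancel]

/-- injectivity half, from four terms -/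
theorem inj_aux {D D' : Triangle T} (hD : D ∈ distTriang T) (hD' : D' ∈ distTriang T)
    (π : D ⟶ D') (e : D ⟶ D) {c : ℤ} (hc : c ≠ 0) (he : e.hom₃ ≫ π.hom₃ = c • π.hom₃)
    (hee : e.hom₃ ≫ e.hom₃ = c • e.hom₃) (h1 : TR π.hom₁ e.hom₁) (h2 : TR π.hom₂ e.hom₂)
    {P : T} (y : P ⟶ D.obj₃) (hy : y ≫ π.hom₃ = 0) :
    ∃ N : ℤ, N ≠ 0 ∧ N • (y ≫ e.hom₃) = 0 := by
  obtain ⟨N, hN, hk⟩ := (h1.map (shiftFunctor T (1 : ℤ))).kill (y ≫ D.mor₃) (by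
    rw [Category.assoc, π.comm₃, ← Category.assoc, hy, zero_comp])
  have k1 : (N • (y ≫ e.hom₃)) ≫ D.mor₃ = 0 := by
    rw [Category.assoc, e.comm₃] at hk
    rw [Preadditive.zsmul_comp, Category.assoc, hk]
  obtain ⟨yB, hyB⟩ := Triangle.coyoneda_exact₃ _ hD _ k1
  have k2 : (yB ≫ π.hom₂) ≫ D'.mor₂ = 0 := by
    rw [Category.assoc, ← π.comm₂, ← Category.assoc, ← hyB, Preadditive.zsmul_comp,
      Category.assoc, he, Preadditive.comp_zsmul, hy, smul_zero, smul_zero]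
  obtain ⟨zA, hzA⟩ := Triangle.coyoneda_exact₂ _ hD' _ k2
  obtain ⟨K, hK, yA, hyA⟩ := h1.lift zA
  obtain ⟨M, hM, hm⟩ := h2.kill (K • yB - yA ≫ D.mor₁) (by
    rw [Preadditive.sub_comp, Category.assoc, π.comm₁, ← Category.assoc, hyA,
      Preadditive.zsmul_comp, Preadditive.zsmul_comp, ← hzA, sub_self])
  refine ⟨M * (K * (N * c)), mul_ne_zero hM (mul_ne_zero hK (mul_ne_zero hN hc)), ?_⟩
  have k3 := congrArg (· ≫ D.mor₂) hm
  simp only [Preadditive.zsmul_comp, zero_comp, Category.assoc, Preadditive.sub_comp] at k3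
  rw [← e.comm₂, ← Category.assoc D.mor₁, comp_distTriang_mor_zero₁₂ _ hD, zero_comp, comp_zero,
    sub_zero, ← Category.assoc, ← hyB, Preadditive.zsmul_comp, Category.assoc, hee,
    Preadditive.comp_zsmul] at k3
  rw [mul_smul, mul_smul, mul_smul, k3]

/-- The rational five lemma in transfer form. -/
theorem five {D D' : Triangle T} (hD : D ∈ distTriang T) (hD' : D' ∈ distTriang T)
    (π : D ⟶ D') (e : D ⟶ D) {c : ℤ} (hc : c ≠ 0)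
    (he₂ : e.hom₂ ≫ π.hom₂ = c • π.hom₂) (hee₂ : e.hom₂ ≫ e.hom₂ = c • e.hom₂)
    (he₃ : e.hom₃ ≫ π.hom₃ = c • π.hom₃) (hee₃ : e.hom₃ ≫ e.hom₃ = c • e.hom₃)
    (h1 : TR π.hom₁ e.hom₁) (h3 : TR π.hom₃ e.hom₃) : TR π.hom₂ e.hom₂ := by
  refine TR.of_elt hc he₂ (fun y hy => ?_) (surj_aux hD hD' π e hc he₃ hee₃ h1 h3 _)
  exact inj_aux (inv_rot_of_distTriang _ hD) (inv_rot_of_distTriang _ hD')
    ((invRotate T).map π) ((invRotate T).map e) hc he₂ hee₂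
    (h3.map (shiftFunctor T (-1 : ℤ))) h1 y hy

/-- The same with explicit objects. -/
theorem five' {A B C A' B' C' : T} {f : A ⟶ B} {g : B ⟶ C} {h : C ⟶ A⟦(1 : ℤ)⟧}
    {f' : A' ⟶ B'} {g' : B' ⟶ C'} {h' : C' ⟶ A'⟦(1 : ℤ)⟧}
    (hD : Triangle.mk f g h ∈ distTriang T) (hD' : Triangle.mk f' g' h' ∈ distTriang T)
    {pA : A ⟶ A'} {pB : B ⟶ B'} {pC : C ⟶ C'} {eA : A ⟶ A} {eB : B ⟶ B} {eC : C ⟶ C}
    (p1 : f ≫ pB = pA ≫ f') (p2 : g ≫ pC = pB ≫ g') (p3 : h ≫ pA⟦(1 : ℤ)⟧' = pC ≫ h')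
    (e1 : f ≫ eB = eA ≫ f) (e2 : g ≫ eC = eB ≫ g) (e3 : h ≫ eA⟦(1 : ℤ)⟧' = eC ≫ h)
    {c : ℤ} (hc : c ≠ 0) (he₂ : eB ≫ pB = c • pB) (hee₂ : eB ≫ eB = c • eB)
    (he₃ : eC ≫ pC = c • pC) (hee₃ : eC ≫ eC = c • eC)
    (h1 : TR pA eA) (h3 : TR pC eC) : TR pB eB :=
  five hD hD' (Triangle.homMk _ _ pA pB pC p1 p2 p3) (Triangle.homMk _ _ eA eB eC e1 e2 e3) hc
    he₂ hee₂ he₃ hee₃ h1 h3

end Vale.Agent.P251EJ51
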